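import Mathlib

set_option linter.unusedSimpArgs false
set_option linter.unusedSectionVars false

/-! P038 (helper614): the counting inequality (club'). -/

namespace Vale.Agent.P038.H614

open Finset Classical

variable {V : Type*} [Fintype V]

noncomputable section

/-- dilation of the second coordinate -/
def Ed (R B : V → V → Prop) : V → V → Prop := fun a u => ∃ x, B a x ∧ R x u
/-- erosion of the first coordinate -/
def Er (R B : V → V → Prop) : V → V → Prop := fun a x => ∀ a', R a' a → B a' x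

/-- the set of all `x` with `P x` -/
def fil (P : V → Prop) : Finset V := univ.filter P

lemma mem_fil {P : V → Prop} {x : V} : x ∈ fil P ↔ P x := by simp [fil]

lemma card_fil (P : V → Prop) : (fil P).card = ∑ x, if P x then 1 else 0 := by
  unfold fil
  rw [Finset.card_filter]

/-- total number of pairs -/
def tot (P : V → V → Prop) : ℕ := ∑ a, (fil (fun u => P a u)).card

lemma tot_col (P : V → V → Prop) : tot P = ∑ u, (fil (fun a => P a u)).card := by
  unfold tot
  simp only [card_fil]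
  exact Finset.sum_comm

/-- rank function of the transversal matroid -/
def rho (R : V → V → Prop) (K D S : Finset V) : ℕ :=
  (S ∩ D).powerset.inf' ⟨∅, mem_powerset.2 (empty_subset _)⟩
    (fun T => ((S ∩ D) \ T).card + (K.filter (fun x => ∃ u ∈ T, R x u)).card)

variable {R : V → V → Prop}

lemma rho_le {K D S T : Finset V} (hT : T ⊆ S ∩ D) :
    rho R K D S ≤ ((S ∩ D) \ T).card + (K.filter (fun x => ∃ u ∈ T, R x u)).card :=
  Finset.inf'_le _ (mem_powerset.2 hT)

lemma rho_exists (R : V → V → Prop) (K D S : Finset V) : ∃ T, T ⊆ S ∩ D ∧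
    rho R K D S = ((S ∩ D) \ T).card + (K.filter (fun x => ∃ u ∈ T, R x u)).card := by
  obtain ⟨T, hT, h⟩ := Finset.exists_mem_eq_inf' (s := (S ∩ D).powerset) ⟨∅, mem_powerset.2 (empty_subset _)⟩
    (fun T => ((S ∩ D) \ T).card + (K.filter (fun x => ∃ u ∈ T, R x u)).card)
  exact ⟨T, mem_powerset.1 hT, h⟩

lemma le_rho {K D S : Finset V} {m : ℕ}
    (h : ∀ T, T ⊆ S ∩ D → m ≤ ((S ∩ D) \ T).card + (K.filter (fun x => ∃ u ∈ T, R x u)).card) :
    m ≤ rho R K D S := by
  obtain ⟨T, hT, hr⟩ := rho_exists R K D S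
  rw [hr]; exact h T hT

lemma rho_empty (K D : Finset V) : rho R K D ∅ = 0 := by
  have := rho_le (R := R) (K := K) (D := D) (S := ∅) (T := ∅) (by simp)
  simpa using this

lemma rho_mono {K D S : Finset V} {u : V} : rho R K D S ≤ rho R K D (insert u S) := by
  apply le_rho
  intro T hT
  have h1 : T ∩ (S ∩ D) ⊆ S ∩ D := inter_subset_right
  refine (rho_le h1).trans ?_
  apply Nat.add_le_add
  · apply card_le_card
    intro y hy
    simp only [mem_sdiff, mem_inter, mem_insert] at hy ⊢
    refine ⟨⟨Or.inr hy.1.1, hy.1.2⟩, fun h => hy.2 ⟨h, hy.1⟩⟩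
  · apply card_le_card
    intro y hy
    simp only [mem_filter, mem_inter] at hy ⊢
    obtain ⟨h, v, hv, hr⟩ := hy
    exact ⟨h, v, hv.1, hr⟩

lemma rho_le_one {K D S : Finset V} {u : V} : rho R K D (insert u S) ≤ rho R K D S + 1 := by
  obtain ⟨T, hT, hr⟩ := rho_exists R K D S
  rw [hr]
  have h1 : T ⊆ insert u S ∩ D := by
    intro y hy
    have := hT hy
    simp only [mem_inter, mem_insert] at this ⊢
    exact ⟨Or.inr this.1, this.2⟩
  refine (rho_le h1).trans ?_
  have : ((insert u S ∩ D) \ T).card ≤ ((S ∩ D) \ T).card + 1 := by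
    have : (insert u S ∩ D) \ T ⊆ insert u ((S ∩ D) \ T) := by
      intro y hy
      simp only [mem_sdiff, mem_inter, mem_insert] at hy ⊢
      tauto
    exact (card_le_card this).trans (card_insert_le _ _)
  omega

lemma rho_zero {K D S : Finset V} {u : V} (h : u ∉ D ∨ ∀ x ∈ K, ¬ R x u) :
    rho R K D (insert u S) ≤ rho R K D S := by
  obtain ⟨T, hT, hr⟩ := rho_exists R K D S
  rw [hr]
  by_cases hu : u ∈ D
  · have hK : ∀ x ∈ K, ¬ R x u := by tauto
    have h1 : insert u T ⊆ insert u S ∩ D := by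
      intro y hy
      simp only [mem_insert] at hy
      rcases hy with rfl | hy
      · simp [hu]
      · have := hT hy
        simp only [mem_inter, mem_insert] at this ⊢
        exact ⟨Or.inr this.1, this.2⟩
    refine (rho_le h1).trans ?_
    apply Nat.add_le_add
    · apply card_le_card
      intro y hy
      simp only [mem_sdiff, mem_inter, mem_insert] at hy ⊢
      tauto
    · apply card_le_card
      intro y hy
      simp only [mem_filter, mem_insert] at hy ⊢
      obtain ⟨hy1, v, hv, hrv⟩ := hy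
      rcases hv with rfl | hv
      · exact absurd hrv (hK y hy1)
      · exact ⟨hy1, v, hv, hrv⟩
  · have h1 : insert u S ∩ D = S ∩ D := by
      ext y
      simp only [mem_inter, mem_insert]
      constructor
      · rintro ⟨h1 | h1, h2⟩
        · subst h1; exact absurd h2 hu
        · exact ⟨h1, h2⟩
      · rintro ⟨h1, h2⟩; exact ⟨Or.inr h1, h2⟩
    have := rho_le (R := R) (K := K) (D := D) (S := insert u S) (T := T) (by rw [h1]; exact hT)
    rw [h1] at this
    exact this


lemma card_le4 {A1 A2 A3 A4 : Finset V} (h1 : A1 ∪ A2 ⊆ A3 ∪ A4) (h2 : A1 ∩ A2 ⊆ A3 ∩ A4) :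
    A1.card + A2.card ≤ A3.card + A4.card := by
  rw [← card_union_add_card_inter A1 A2, ← card_union_add_card_inter A3 A4]
  exact Nat.add_le_add (card_le_card h1) (card_le_card h2)

/-- FACT 3 -/
lemma rho_fact3 {K K' D D' S : Finset V} {u : V} (hK : K ⊆ K') (hD : D' ⊆ D) (hu : u ∈ D')
    (huS : u ∉ S) :
    rho R K D (insert u S) + rho R K' D' S ≤ rho R K' D' (insert u S) + rho R K D S := by
  obtain ⟨T1, hT1, hr1⟩ := rho_exists R K' D' (insert u S)
  obtain ⟨T2, hT2, hr2⟩ := rho_exists R K D S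
  rw [hr1, hr2]
  have h1 : T1 ∪ T2 ⊆ insert u S ∩ D := by
    intro y hy
    simp only [mem_union] at hy
    simp only [mem_inter, mem_insert]
    rcases hy with hy | hy
    · have := hT1 hy
      simp only [mem_inter, mem_insert] at this
      exact ⟨this.1, hD this.2⟩
    · have := hT2 hy
      simp only [mem_inter] at this
      exact ⟨Or.inr this.1, this.2⟩
  have h2 : T1 ∩ T2 ⊆ S ∩ D' := by
    intro y hy
    simp only [mem_inter] at hy
    have h3 := hT1 hy.1
    have h4 := hT2 hy.2
    simp only [mem_inter, mem_insert] at h3 h4 ⊢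
    exact ⟨h4.1, h3.2⟩
  have e1 := rho_le (R := R) (K := K) h1
  have e2 := rho_le (R := R) (K := K') h2
  have c1 : ((insert u S ∩ D) \ (T1 ∪ T2)).card + ((S ∩ D') \ (T1 ∩ T2)).card ≤
      ((insert u S ∩ D') \ T1).card + ((S ∩ D) \ T2).card := by
    apply card_le4
    · intro y hy
      have q3 : y ∈ D' → y ∈ D := fun h => hD h
      have q4 : y = u → y ∈ D' := by rintro rfl; exact hu
      simp only [mem_sdiff, mem_inter, mem_insert, mem_union] at hy ⊢
      tauto
    · intro y hy
      have q3 : y ∈ D' → y ∈ D := fun h => hD h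
      have q4 : y = u → y ∈ D' := by rintro rfl; exact hu
      simp only [mem_sdiff, mem_inter, mem_insert, mem_union] at hy ⊢
      tauto
  have c2 : (K.filter (fun x => ∃ u ∈ T1 ∪ T2, R x u)).card +
      (K'.filter (fun x => ∃ u ∈ T1 ∩ T2, R x u)).card ≤
      (K'.filter (fun x => ∃ u ∈ T1, R x u)).card + (K.filter (fun x => ∃ u ∈ T2, R x u)).card := by
    apply card_le4
    · intro y hy
      simp only [mem_union, mem_filter] at hy ⊢
      rcases hy with ⟨hy, v, hv, hr⟩ | ⟨hy, v, hv, hr⟩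
      · rcases hv with hv | hv
        · exact Or.inl ⟨hK hy, v, hv, hr⟩
        · exact Or.inr ⟨hy, v, hv, hr⟩
      · rw [mem_inter] at hv
        exact Or.inl ⟨hy, v, hv.1, hr⟩
    · intro y hy
      simp only [mem_inter, mem_union, mem_filter] at hy ⊢
      obtain ⟨⟨h1, -⟩, h2, v, hv, hr⟩ := hy
      exact ⟨⟨h2, v, hv.1, hr⟩, h1, v, hv.2, hr⟩
  omega


lemma hall_union {n : ℕ} (e : V ≃ Fin n) (T W : Finset V) (P : V → V → Prop)
    (A : V → Finset V → Finset V)
    (h0 : ∀ t ∈ T, ∃ x, P x t)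
    (h1 : ∀ x T', T' ⊆ T → (∀ t ∈ T', P x t) → T'.card ≤ (A x T').card)
    (h2 : ∀ x T', T' ⊆ T → (∀ t ∈ T', P x t) → A x T' ⊆ W)
    (h3 : ∀ x y T1 T2, T1 ⊆ T → T2 ⊆ T → (∀ t ∈ T1, P x t) →
      (∀ t ∈ T2, P y t ∧ ¬ P x t) → Disjoint (A x T1) (A y T2)) :
    T.card ≤ W.card := by
  have hf : ∀ t : V, ∃ x, t ∈ T → P x t ∧ ∀ y, P y t → e x ≤ e y := by
    intro t
    by_cases ht : t ∈ T
    · obtain ⟨x, hx⟩ := h0 t ht
      obtain ⟨z, hz, hmin⟩ := Finset.exists_min_image (fil (fun y => P y t))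
        (fun y => e y) ⟨x, (mem_fil (P := fun y => P y t)).2 hx⟩
      refine ⟨z, fun _ => ⟨(mem_fil (P := fun y => P y t)).1 hz, fun y hy => hmin y ((mem_fil (P := fun y => P y t)).2 hy)⟩⟩
    · exact ⟨t, fun h => absurd h ht⟩
  choose f hf using hf
  have hsub : ∀ x, (T.filter (fun t => f t = x)) ⊆ T := fun x => filter_subset _ _
  have hP : ∀ x, ∀ t ∈ T.filter (fun t => f t = x), P x t := by
    intro x t ht
    simp only [mem_filter] at ht
    have := (hf t ht.1).1
    rw [ht.2] at this
    exact this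
  rw [Finset.card_eq_sum_card_fiberwise (f := f) (s := T) (t := univ) (by intro x _; simp)]
  have hdisj : ∀ x ∈ (univ : Finset V), ∀ y ∈ (univ : Finset V), x ≠ y →
      Disjoint (A x (T.filter (fun t => f t = x))) (A y (T.filter (fun t => f t = y))) := by
    have key : ∀ x y, e x < e y →
      Disjoint (A x (T.filter (fun t => f t = x))) (A y (T.filter (fun t => f t = y))) := by
      intro x y hxy
      apply h3 x y _ _ (hsub x) (hsub y) (hP x)
      intro t ht
      refine ⟨hP y t ht, fun hxt => ?_⟩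
      simp only [mem_filter] at ht
      have := (hf t ht.1).2 x hxt
      rw [ht.2] at this
      exact absurd this (not_le.2 hxy)
    intro x _ y _ hne
    rcases lt_trichotomy (e x) (e y) with h | h | h
    · exact key x y h
    · exact absurd (e.injective h) hne
    · exact (key y x h).symm
  calc ∑ b, (T.filter (fun t => f t = b)).card ≤ ∑ b, (A b (T.filter (fun t => f t = b))).card :=
        Finset.sum_le_sum (fun b _ => h1 b _ (hsub b) (hP b))
    _ = ((univ : Finset V).biUnion (fun b => A b (T.filter (fun t => f t = b)))).card :=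
        (Finset.card_biUnion hdisj).symm
    _ ≤ W.card := by
        apply card_le_card
        intro y hy
        simp only [mem_biUnion, mem_univ, true_and] at hy
        obtain ⟨b, hb⟩ := hy
        exact h2 b _ (hsub b) (hP b) hb

/-- initial segments -/
def seg {n : ℕ} (e : V ≃ Fin n) (k : ℕ) : Finset V := fil (fun v => (e v : ℕ) < k)

lemma seg_succ {n : ℕ} (e : V ≃ Fin n) (u : V) : seg e ((e u : ℕ) + 1) = insert u (seg e (e u)) := by
  ext y
  simp only [seg, mem_fil, mem_insert]
  constructor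
  · intro h
    rcases Nat.lt_succ_iff_lt_or_eq.1 h with h | h
    · exact Or.inr h
    · left
      exact e.injective (Fin.ext h)
  · rintro (rfl | h)
    · exact Nat.lt_succ_self _
    · omega

lemma not_mem_seg {n : ℕ} (e : V ≃ Fin n) (u : V) : u ∉ seg e (e u) := by
  simp [seg, mem_fil]

/-- greedy load -/
def load {n : ℕ} (e : V ≃ Fin n) (R : V → V → Prop) (K D : Finset V) (u : V) : ℤ :=
  (rho R K D (seg e ((e u : ℕ) + 1)) : ℤ) - rho R K D (seg e (e u))

lemma sum_load {n : ℕ} (e : V ≃ Fin n) (K D : Finset V) :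
    ∑ u, load e R K D u = rho R K D univ := by
  have h1 : ∑ u, load e R K D u = ∑ i : Fin n, ((rho R K D (seg e ((i : ℕ) + 1)) : ℤ)
      - rho R K D (seg e (i : ℕ))) :=
    Equiv.sum_comp e (fun i : Fin n => ((rho R K D (seg e ((i : ℕ) + 1)) : ℤ)
      - rho R K D (seg e (i : ℕ))))
  rw [h1, Fin.sum_univ_eq_sum_range (fun k => ((rho R K D (seg e (k + 1)) : ℤ)
      - rho R K D (seg e k))) n, Finset.sum_range_sub (fun k => (rho R K D (seg e k) : ℤ)) n]
  have e1 : seg e n = univ := by
    ext y; simp [seg, mem_fil]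
  have e2 : seg e 0 = (∅ : Finset V) := by
    ext y; simp [seg, mem_fil]
  rw [e1, e2, rho_empty]
  simp

lemma load_nonneg {n : ℕ} (e : V ≃ Fin n) (K D : Finset V) (u : V) : 0 ≤ load e R K D u := by
  unfold load
  rw [seg_succ]
  have := rho_mono (R := R) (K := K) (D := D) (S := seg e (e u)) (u := u)
  omega

lemma load_le_one {n : ℕ} (e : V ≃ Fin n) (K D : Finset V) (u : V) : load e R K D u ≤ 1 := by
  unfold load
  rw [seg_succ]
  have := rho_le_one (R := R) (K := K) (D := D) (S := seg e (e u)) (u := u)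
  omega

lemma load_zero {n : ℕ} (e : V ≃ Fin n) {K D : Finset V} {u : V}
    (h : u ∉ D ∨ ∀ x ∈ K, ¬ R x u) : load e R K D u ≤ 0 := by
  unfold load
  rw [seg_succ]
  have := rho_zero (R := R) (K := K) (D := D) (S := seg e (e u)) (u := u) h
  omega

lemma load_mono {n : ℕ} (e : V ≃ Fin n) {K K' D D' : Finset V} {u : V} (hK : K ⊆ K')
    (hD : D' ⊆ D) (hu : u ∈ D') : load e R K D u ≤ load e R K' D' u := by
  unfold load
  rw [seg_succ]
  have := rho_fact3 (R := R) hK hD hu (not_mem_seg e u)
  omega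

/-- THE COUNTING INEQUALITY (club'). -/
theorem club (R B U : V → V → Prop) (hrefl : ∀ a, R a a)
    (hrow : ∀ a (S : Finset V), (∀ x ∈ S, U a x ∧ ¬ B a x) →
      S.card ≤ (fil (fun u => (∃ x, x ∈ S ∧ R x u) ∧ ¬ Ed R B a u)).card)
    (hcol : ∀ x (T : Finset V), (∀ a ∈ T, U a x ∧ ¬ B a x) →
      T.card ≤ (fil (fun a => (∃ a', a' ∈ T ∧ R a' a) ∧ Er R U a x)).card)
    (hUA : ∀ a x, U a x → R x a → a = x) :
    tot (fun a u => Ed R U a u ∧ ¬ Ed R B a u) + tot (fun a x => Er R U a x ∧ ¬ Er R B a x) ≤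
    tot (fun a x => U a x ∧ ¬ B a x) +
      tot (fun a u => Er R (Ed R U) a u ∧ ¬ Ed R (Er R B) a u ∧ ¬ (R u a ∧ u ≠ a)) := by
  set e := Fintype.equivFin V
  -- FACT 0
  have fact0 : ∀ a a' x u, R a' a → ¬ Ed R B a' u → R x u → Er R U a x →
      (U a' x ∧ ¬ B a' x) ∧ (Er R (Ed R U) a u ∧ ¬ Ed R (Er R B) a u ∧ ¬ (R u a ∧ u ≠ a)) := by
    intro a a' x u h1 h2 h3 h4
    refine ⟨⟨h4 a' h1, fun h => h2 ⟨x, h, h3⟩⟩, ?_, ?_, ?_⟩
    · intro a'' h''
      exact ⟨x, h4 a'' h'', h3⟩
    · rintro ⟨x', hx', hr⟩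
      exact h2 ⟨x', hx' a' h1, hr⟩
    · rintro ⟨hr, hne⟩
      have h5 : u = x := hUA u x (h4 u hr) h3
      subst h5
      exact hne (hUA a u (h4 a (hrefl a)) hr).symm
  -- FACT 1
  have fact1 : ∀ a (S : Finset V), (∀ x ∈ S, Er R U a x ∧ ¬ Er R B a x) →
      S.card ≤ (fil (fun u => (∃ x, x ∈ S ∧ R x u) ∧ ∃ a', R a' a ∧ ¬ Ed R B a' u)).card := by
    intro a S hS
    apply hall_union e S _ (fun a' x => R a' a ∧ ¬ B a' x)
      (fun a' T' => fil (fun u => (∃ x, x ∈ T' ∧ R x u) ∧ ¬ Ed R B a' u))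
    · intro x hx
      have := (hS x hx).2
      unfold Er at this
      push Not at this
      exact this
    · intro a' T' hT' hP
      apply hrow
      intro x hx
      exact ⟨(hS x (hT' hx)).1 a' (hP x hx).1, (hP x hx).2⟩
    · intro a' T' hT' hP u hu
      simp only [mem_fil, mem_filter, mem_univ, true_and] at hu ⊢
      obtain ⟨⟨x, hx, hxu⟩, hE⟩ := hu
      exact ⟨⟨x, hT' hx, hxu⟩, a', (hP x hx).1, hE⟩
    · intro a1 a2 T1 T2 hT1 hT2 hP1 hP2
      rw [Finset.disjoint_left]
      intro u hu1 hu2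
      simp only [mem_fil, mem_filter, mem_univ, true_and] at hu1 hu2
      obtain ⟨⟨x1, hx1, hxu1⟩, hE1⟩ := hu1
      obtain ⟨⟨x2, hx2, hxu2⟩, hE2⟩ := hu2
      exact (hP2 x2 hx2).2 ⟨(hP1 x1 hx1).1, fun h => hE1 ⟨x2, h, hxu2⟩⟩
  -- FACT 2
  have fact2 : ∀ u (T : Finset V), (∀ a' ∈ T, Ed R U a' u ∧ ¬ Ed R B a' u) →
      T.card ≤ (fil (fun a => ∃ a', a' ∈ T ∧ R a' a ∧ ∃ x, R x u ∧ Er R U a x)).card := by
    intro u T hT
    apply hall_union e T _ (fun x a' => R x u ∧ U a' x)
      (fun x T' => fil (fun a => (∃ a', a' ∈ T' ∧ R a' a) ∧ Er R U a x))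
    · intro a' ha'
      obtain ⟨x, hx, hr⟩ := (hT a' ha').1
      exact ⟨x, hr, hx⟩
    · intro x T' hT' hP
      apply hcol
      intro a' ha'
      exact ⟨(hP a' ha').2, fun h => (hT a' (hT' ha')).2 ⟨x, h, (hP a' ha').1⟩⟩
    · intro x T' hT' hP a ha
      simp only [mem_fil, mem_filter, mem_univ, true_and] at ha ⊢
      obtain ⟨⟨a', ha', hr⟩, hE⟩ := ha
      exact ⟨a', hT' ha', hr, x, (hP a' ha').1, hE⟩
    · intro x1 x2 T1 T2 hT1 hT2 hP1 hP2
      rw [Finset.disjoint_left]
      intro a ha1 ha2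
      simp only [mem_fil, mem_filter, mem_univ, true_and] at ha1 ha2
      obtain ⟨⟨b1, hb1, hr1⟩, hE1⟩ := ha1
      obtain ⟨⟨b2, hb2, hr2⟩, hE2⟩ := ha2
      exact (hP2 b2 hb2).2 ⟨(hP1 b1 hb1).1, hE1 b2 hr2⟩
  -- loads
  let K1 : V → Finset V := fun a => fil (fun x => U a x)
  let D1 : V → Finset V := fun a => fil (fun u => ¬ Ed R B a u)
  let K2 : V → Finset V := fun a => fil (fun x => Er R U a x)
  let D2 : V → Finset V := fun a => fil (fun u => ∃ a', R a' a ∧ ¬ Ed R B a' u)
  let l1 : V → V → ℤ := fun a u => load e R (K1 a) (D1 a) u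
  let l2 : V → V → ℤ := fun a u => load e R (K2 a) (D2 a) u
  let PE : V → V → Prop := fun a u => Ed R U a u ∧ ¬ Ed R B a u
  let PA : V → V → Prop := fun a x => Er R U a x ∧ ¬ Er R B a x
  let G : V → V → Prop := fun a x => U a x ∧ ¬ B a x
  let Q : V → V → Prop := fun a u => Er R (Ed R U) a u ∧ ¬ Ed R (Er R B) a u ∧ ¬ (R u a ∧ u ≠ a)
  let F1 : V → V → Prop := fun a u => PE a u ∧ l1 a u ≤ 0
  let F2 : V → V → Prop := fun a u => Q a u ∧ l2 a u ≤ 0
  have mono12 : ∀ a a' u, R a' a → ¬ Ed R B a' u → l2 a u ≤ l1 a' u := by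
    intro a a' u h1 h2
    apply load_mono
    · intro x hx
      simp only [K1, K2, mem_fil, mem_filter, mem_univ, true_and] at hx ⊢
      exact hx a' h1
    · intro y hy
      simp only [D1, D2, mem_fil, mem_filter, mem_univ, true_and] at hy ⊢
      exact ⟨a', h1, hy⟩
    · simp only [D1, mem_fil, mem_filter, mem_univ, true_and]
      exact h2
  -- type 1
  have type1 : ∀ a, (fil (fun u => PE a u)).card ≤
      (fil (fun x => G a x)).card + (fil (fun u => F1 a u)).card := by
    intro a
    have hs : ∑ u, l1 a u = rho R (K1 a) (D1 a) univ := sum_load e _ _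
    have hr : rho R (K1 a) (D1 a) univ ≤ (fil (fun x => G a x)).card := by
      have := rho_le (R := R) (K := K1 a) (D := D1 a) (S := univ) (T := univ ∩ D1 a) (by simp)
      refine this.trans ?_
      have h0 : ((univ ∩ D1 a) \ (univ ∩ D1 a)).card = 0 := by simp
      rw [h0, Nat.zero_add]
      apply card_le_card
      intro x hx
      simp only [mem_fil, mem_filter, K1, D1, univ_inter] at hx ⊢
      obtain ⟨h1, u, hu, hr⟩ := hx
      exact ⟨h1, fun h => hu ⟨x, h, hr⟩⟩
    have hc : ((fil (fun u => PE a u ∧ ¬ F1 a u)).card : ℤ) ≤ ∑ u, l1 a u := by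
      rw [card_fil]
      push_cast
      apply Finset.sum_le_sum
      intro u _
      split_ifs with h
      · have h1 : ¬ (l1 a u ≤ 0) := fun h' => h.2 ⟨h.1, h'⟩
        omega
      · exact load_nonneg e _ _ _
    have hsplit : (fil (fun u => PE a u)).card ≤
        (fil (fun u => PE a u ∧ ¬ F1 a u)).card + (fil (fun u => F1 a u)).card := by
      refine (card_le_card ?_).trans (card_union_le _ _)
      intro u hu
      simp only [mem_union, mem_fil, mem_filter, mem_univ, true_and] at hu ⊢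
      by_cases h : F1 a u
      · exact Or.inr h
      · exact Or.inl ⟨hu, h⟩
    omega
  -- type 2
  have type2 : ∀ a, (fil (fun u => F2 a u)).card + (fil (fun x => PA a x)).card ≤
      (fil (fun u => Q a u)).card := by
    intro a
    have hs : ∑ u, l2 a u = rho R (K2 a) (D2 a) univ := sum_load e _ _
    have hr : (fil (fun x => PA a x)).card ≤ rho R (K2 a) (D2 a) univ := by
      apply le_rho
      intro T hT
      have hsp : (fil (fun x => PA a x)).card ≤
          (fil (fun x => PA a x ∧ ¬ ∃ u, u ∈ T ∧ R x u)).card +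
          ((K2 a).filter (fun x => ∃ u ∈ T, R x u)).card := by
        refine (card_le_card ?_).trans (card_union_le _ _)
        intro x hx
        simp only [mem_union, mem_fil, mem_filter, mem_univ, true_and, K2] at hx ⊢
        by_cases h : ∃ u, u ∈ T ∧ R x u
        · exact Or.inr ⟨hx.1, h⟩
        · exact Or.inl ⟨hx, h⟩
      have hf := fact1 a (fil (fun x => PA a x ∧ ¬ ∃ u, u ∈ T ∧ R x u)) (by
        intro x hx
        simp only [mem_fil, mem_filter, mem_univ, true_and] at hx
        exact hx.1)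
      have hsub : (fil (fun u => (∃ x, x ∈ (fil (fun x => PA a x ∧ ¬ ∃ u, u ∈ T ∧ R x u)) ∧ R x u) ∧
          ∃ a', R a' a ∧ ¬ Ed R B a' u)) ⊆ (univ ∩ D2 a) \ T := by
        intro u hu
        simp only [mem_fil, mem_filter, mem_univ, true_and, mem_sdiff, mem_inter, D2] at hu ⊢
        obtain ⟨⟨x, ⟨_, hx2⟩, hxu⟩, h2⟩ := hu
        exact ⟨h2, fun h => hx2 ⟨u, h, hxu⟩⟩
      have := card_le_card hsub
      omega
    have hc : ∑ u, l2 a u ≤ ((fil (fun u => Q a u ∧ ¬ F2 a u)).card : ℤ) := by
      rw [card_fil]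
      push_cast
      apply Finset.sum_le_sum
      intro u _
      split_ifs with h
      · exact load_le_one e _ _ _
      · by_cases hq : Q a u
        · have : F2 a u := by
            by_contra h'
            exact h ⟨hq, h'⟩
          exact this.2
        · apply load_zero
          by_contra hcon
          push Not at hcon
          obtain ⟨h1, x, hx, hxu⟩ := hcon
          simp only [D2, K2, mem_fil, mem_filter, mem_univ, true_and] at h1 hx
          obtain ⟨a', ha', hE⟩ := h1
          exact hq (fact0 a a' x u ha' hE hxu hx).2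
    have hsplit : (fil (fun u => Q a u ∧ ¬ F2 a u)).card + (fil (fun u => F2 a u)).card
        ≤ (fil (fun u => Q a u)).card := by
      rw [← card_union_of_disjoint]
      · apply card_le_card
        intro u hu
        simp only [mem_union, mem_fil, mem_filter, mem_univ, true_and] at hu ⊢
        rcases hu with h | h
        · exact h.1
        · exact h.1
      · rw [Finset.disjoint_left]
        intro u h1 h2
        simp only [mem_fil, mem_filter, mem_univ, true_and] at h1 h2
        exact h1.2 h2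
    omega
  -- columns
  have hcols : tot F1 ≤ tot F2 := by
    rw [tot_col, tot_col]
    apply Finset.sum_le_sum
    intro u _
    refine (fact2 u (fil (fun a => F1 a u)) ?_).trans (card_le_card ?_)
    · intro a' ha'
      simp only [mem_fil, mem_filter, mem_univ, true_and] at ha'
      exact ha'.1
    · intro a ha
      simp only [mem_fil, mem_filter, mem_univ, true_and] at ha ⊢
      obtain ⟨a', ha', hr, x, hxu, hE⟩ := ha
      refine ⟨(fact0 a a' x u hr ha'.1.2 hxu hE).2, ?_⟩
      exact (mono12 a a' u hr ha'.1.2).trans ha'.2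
  have s1 : tot PE ≤ tot G + tot F1 := by
    unfold tot
    rw [← Finset.sum_add_distrib]
    exact Finset.sum_le_sum (fun a _ => type1 a)
  have s2 : tot F2 + tot PA ≤ tot Q := by
    unfold tot
    rw [← Finset.sum_add_distrib]
    exact Finset.sum_le_sum (fun a _ => type2 a)
  show tot PE + tot PA ≤ tot G + tot Q
  omega

end

end Vale.Agent.P038.H614
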